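import Mathlib
import Vale.Agent.LipFree.Defs
import Vale.Agent.LipFree.Gap
import Vale.Agent.LipFree.Final

/-! # P090: a uniformly discrete `M` such that `F(M)` fails the BAP -/

namespace Vale.Agent.Results.P090.NoBAP

open Vale.Agent.LipFree

/-- There is a (countable) uniformly discrete pointed metric space `(M, o)` such that the
Lipschitz-free space `F(M)` does not have the bounded approximation property. -/
theorem result : ∃ (M : Type) (_ : MetricSpace M) (o : M),
    Countable M ∧ UniformlyDiscrete M ∧ ¬ BAP (FreeSpace M o) :=
  ⟨Pt 1000, inferInstance, base 1000, countable_Pt 1000, uniformlyDiscrete 1000,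
    not_bap 1000 (fun n _ f hf => by exact_mod_cast gap n f hf) _⟩

end Vale.Agent.Results.P090.NoBAP
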